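import Vale.Agent.Lib.P248.helper55.ABCone
import Vale.Agent.Lib.P248.helper37.SRInduction
import Vale.Agent.Lib.P248.helper37.LAB

/-!
# P248 (helper55): the volume product of locally anti-blocking convex bodies, assembled

The cone inequality `ab_cone_ineq` gives `ConeStatement n` of helper37 for every `n`; with the
induction `sr_all` and the orthant reduction `lab_euclid` of helper37 this is the inequality
`4^n / n! ≤ |K| |K°|` for every locally anti-blocking convex body `K` of
`EuclideanSpace ℝ (Fin n)`.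
-/

namespace Vale.Agent.Lib.P248.H55

open MeasureTheory Set

theorem cone_statement (n : ℕ) : Vale.Agent.Lib.P248.H37.ConeStatement n := by
  intro A hcl hconv hnn hdown x hx
  by_cases hfin : volume A = ⊤
  · rw [hfin]
    have e : ((n : ENNReal) + 1) * ⊤ = ⊤ := ENNReal.mul_top (by simp)
    rw [e]
    exact le_top
  · exact ab_cone_ineq n A hcl hconv hnn
      (fun p hp q hq0 hqp => hdown p hp q (fun i => ⟨hq0 i, hqp i⟩)) hfin x hx

theorem sr_statement (n : ℕ) : Vale.Agent.Lib.P248.H37.SRStatement n :=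
  Vale.Agent.Lib.P248.H37.sr_all cone_statement n

/-- The volume product of a locally anti-blocking convex body is at least `4^n / n!`. -/
theorem locally_anti_blocking {n : ℕ} {K : Set (EuclideanSpace ℝ (Fin n))}
    (hconv : Convex ℝ K) (hcomp : IsCompact K)
    (h0 : (0 : EuclideanSpace ℝ (Fin n)) ∈ interior K)
    (hLAB : ∀ x ∈ K, ∀ y : EuclideanSpace ℝ (Fin n),
      (∀ i, 0 ≤ x i * y i ∧ |y i| ≤ |x i|) → y ∈ K) :
    ENNReal.ofReal (4 ^ n / (n.factorial : ℝ)) ≤
      volume K * volume {y : EuclideanSpace ℝ (Fin n) | ∀ x ∈ K, inner ℝ x y ≤ 1} :=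
  Vale.Agent.Lib.P248.H37.lab_euclid (sr_statement n) hconv hcomp h0 hLAB

end Vale.Agent.Lib.P248.H55
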