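import Mathlib

/-!
# P248 (helper55): the cone inequality for anti-blocking convex sets

`A ⊆ R^(n+1)` closed, convex, contained in the closed positive orthant and down-closed there
(anti-blocking), of finite volume, and `x ∈ A`.  Then
`∑ i, x i * |A ∩ {p i = 0}| ≤ (n + 1) * |A|`.

Proof without cones: for `lam ∈ (0, 1)` the homothetic copy `(1 - lam) x + lam A` and the `n + 1`
cylinders `{0 ≤ p i < (1 - lam) x i} × ((1 - lam) x' + lam (A ∩ {p i = 0}))` are pairwise
disjoint subsets of `A`; compare volumes and let `lam → 1`.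
-/

namespace Vale.Agent.Lib.P248.H55

open MeasureTheory Set
open scoped ENNReal Topology

variable {n : ℕ}

/-- The section of `A` by the coordinate hyperplane `p i = 0`, as a subset of `R^n`. -/
def abSec (A : Set (Fin (n + 1) → ℝ)) (i : Fin (n + 1)) : Set (Fin n → ℝ) :=
  {z | (Fin.insertNth i (0 : ℝ) z : Fin (n + 1) → ℝ) ∈ A}

/-- The cylinder over the shrunk section. -/
def abCyl (A : Set (Fin (n + 1) → ℝ)) (x : Fin (n + 1) → ℝ) (lam : ℝ) (i : Fin (n + 1)) :
    Set (Fin (n + 1) → ℝ) :=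
  (MeasurableEquiv.piFinSuccAbove (fun _ => ℝ) i) ⁻¹'
    (Ico (0 : ℝ) ((1 - lam) * x i) ×ˢ
      (AffineMap.homothety (i.removeNth x : Fin n → ℝ) lam '' abSec A i))

theorem mem_abCyl {A : Set (Fin (n + 1) → ℝ)} {x : Fin (n + 1) → ℝ} {lam : ℝ}
    {i : Fin (n + 1)} {p : Fin (n + 1) → ℝ} :
    p ∈ abCyl A x lam i ↔ (0 ≤ p i ∧ p i < (1 - lam) * x i) ∧
      ∃ b ∈ abSec A i, ∀ j : Fin n,
        p (i.succAbove j) = (1 - lam) * x (i.succAbove j) + lam * b j := by
  unfold abCyl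
  simp only [mem_preimage, mem_prod, mem_Ico, mem_image, MeasurableEquiv.piFinSuccAbove_apply]
  constructor
  · rintro ⟨h1, b, hb, hbe⟩
    refine ⟨h1, b, hb, fun j => ?_⟩
    have := congrFun hbe j
    simp only [AffineMap.homothety_apply, vsub_eq_sub, vadd_eq_add, Pi.add_apply, Pi.smul_apply,
      Pi.sub_apply, smul_eq_mul, Fin.removeNth] at this
    simp only [Fin.insertNthEquiv, Equiv.coe_fn_symm_mk, Fin.removeNth] at *
    linarith
  · rintro ⟨h1, b, hb, hbe⟩
    refine ⟨h1, b, hb, ?_⟩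
    funext j
    simp only [AffineMap.homothety_apply, vsub_eq_sub, vadd_eq_add, Pi.add_apply, Pi.smul_apply,
      Pi.sub_apply, smul_eq_mul, Fin.removeNth]
    have := hbe j
    simp only [Fin.insertNthEquiv, Equiv.coe_fn_symm_mk, Fin.removeNth] at *
    linarith

theorem volume_abCyl (A : Set (Fin (n + 1) → ℝ)) (x : Fin (n + 1) → ℝ) {lam : ℝ}
    (hl : 0 ≤ lam) (i : Fin (n + 1)) :
    volume (abCyl A x lam i) =
      ENNReal.ofReal ((1 - lam) * x i) * (ENNReal.ofReal (lam ^ n) * volume (abSec A i)) := by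
  unfold abCyl
  rw [(volume_preserving_piFinSuccAbove (fun _ => ℝ) i).measure_preimage_equiv,
    Measure.volume_eq_prod, Measure.prod_prod, Real.volume_Ico, sub_zero,
    Measure.addHaar_image_homothety, Module.finrank_fin_fun, abs_of_nonneg (pow_nonneg hl n)]

/-- The image of a closed set under a homothety with nonzero ratio is closed. -/
theorem isClosed_homothety_image {E : Type*} [NormedAddCommGroup E] [NormedSpace ℝ E]
    (c : E) {lam : ℝ} (hl : lam ≠ 0) {S : Set E} (hS : IsClosed S) :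
    IsClosed (AffineMap.homothety c lam '' S) := by
  have e : AffineMap.homothety c lam '' S = (AffineMap.homothety c lam⁻¹) ⁻¹' S := by
    ext y
    constructor
    · rintro ⟨b, hb, rfl⟩
      show AffineMap.homothety c lam⁻¹ (AffineMap.homothety c lam b) ∈ S
      rw [← AffineMap.homothety_mul_apply, inv_mul_cancel₀ hl, AffineMap.homothety_one]
      exact hb
    · intro hy
      refine ⟨AffineMap.homothety c lam⁻¹ y, hy, ?_⟩
      rw [← AffineMap.homothety_mul_apply, mul_inv_cancel₀ hl, AffineMap.homothety_one]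
      rfl
  rw [e]
  exact hS.preimage (AffineMap.homothety_continuous c lam⁻¹)

theorem isClosed_abSec {A : Set (Fin (n + 1) → ℝ)} (hcl : IsClosed A) (i : Fin (n + 1)) :
    IsClosed (abSec A i) := by
  unfold abSec
  exact hcl.preimage (Continuous.finInsertNth i continuous_const continuous_id)

theorem measurableSet_abCyl {A : Set (Fin (n + 1) → ℝ)} (hcl : IsClosed A)
    (x : Fin (n + 1) → ℝ) {lam : ℝ} (hl : lam ≠ 0) (i : Fin (n + 1)) :
    MeasurableSet (abCyl A x lam i) := by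
  unfold abCyl
  apply (MeasurableEquiv.piFinSuccAbove (fun _ => ℝ) i).measurable
  exact measurableSet_Ico.prod (isClosed_homothety_image _ hl (isClosed_abSec hcl i)).measurableSet

/-- Points of a section have nonnegative coordinates. -/
theorem abSec_nonneg {A : Set (Fin (n + 1) → ℝ)} (hnn : ∀ p ∈ A, ∀ i, 0 ≤ p i)
    {i : Fin (n + 1)} {b : Fin n → ℝ} (hb : b ∈ abSec A i) (j : Fin n) : 0 ≤ b j := by
  have := hnn _ hb (i.succAbove j)
  rwa [Fin.insertNth_apply_succAbove] at this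

theorem abCyl_subset {A : Set (Fin (n + 1) → ℝ)} (hconv : Convex ℝ A)
    (hnn : ∀ p ∈ A, ∀ i, 0 ≤ p i)
    (hdown : ∀ p ∈ A, ∀ q : Fin (n + 1) → ℝ, (∀ i, 0 ≤ q i) → (∀ i, q i ≤ p i) → q ∈ A)
    {x : Fin (n + 1) → ℝ} (hx : x ∈ A) {lam : ℝ} (hl0 : 0 ≤ lam) (hl1 : lam ≤ 1)
    (i : Fin (n + 1)) : abCyl A x lam i ⊆ A := by
  intro p hp
  obtain ⟨⟨hp0, hplt⟩, b, hb, hbe⟩ := mem_abCyl.1 hp
  have hq : (1 - lam) • x + lam • (Fin.insertNth i (0 : ℝ) b : Fin (n + 1) → ℝ) ∈ A :=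
    hconv hx hb (by linarith) hl0 (by ring)
  refine hdown _ hq p ?_ ?_
  · rw [i.forall_iff_succAbove]
    refine ⟨hp0, fun j => ?_⟩
    rw [hbe j]
    have h1 := hnn x hx (i.succAbove j)
    have h2 := abSec_nonneg hnn hb j
    have h3 : 0 ≤ (1 - lam) * x (i.succAbove j) := mul_nonneg (by linarith) h1
    have h4 : 0 ≤ lam * b j := mul_nonneg hl0 h2
    linarith
  · rw [i.forall_iff_succAbove]
    refine ⟨?_, fun j => ?_⟩
    · simp only [Pi.add_apply, Pi.smul_apply, smul_eq_mul, Fin.insertNth_apply_same, mul_zero,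
        add_zero]
      exact hplt.le
    · simp only [Pi.add_apply, Pi.smul_apply, smul_eq_mul, Fin.insertNth_apply_succAbove]
      rw [hbe j]

theorem abCyl_coord_ge {A : Set (Fin (n + 1) → ℝ)} (hnn : ∀ p ∈ A, ∀ i, 0 ≤ p i)
    {x : Fin (n + 1) → ℝ} {lam : ℝ} (hl0 : 0 ≤ lam) {i : Fin (n + 1)}
    {p : Fin (n + 1) → ℝ} (hp : p ∈ abCyl A x lam i) {k : Fin (n + 1)} (hk : k ≠ i) :
    (1 - lam) * x k ≤ p k := by
  obtain ⟨_, b, hb, hbe⟩ := mem_abCyl.1 hp
  obtain ⟨j, rfl⟩ := Fin.exists_succAbove_eq hk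
  rw [hbe j]
  have h4 : 0 ≤ lam * b j := mul_nonneg hl0 (abSec_nonneg hnn hb j)
  linarith

theorem abCyl_coord_lt {A : Set (Fin (n + 1) → ℝ)} {x : Fin (n + 1) → ℝ} {lam : ℝ}
    {i : Fin (n + 1)} {p : Fin (n + 1) → ℝ} (hp : p ∈ abCyl A x lam i) :
    p i < (1 - lam) * x i :=
  (mem_abCyl.1 hp).1.2

theorem homothety_coord_ge {A : Set (Fin (n + 1) → ℝ)} (hnn : ∀ p ∈ A, ∀ i, 0 ≤ p i)
    {x : Fin (n + 1) → ℝ} {lam : ℝ} (hl0 : 0 ≤ lam) {p : Fin (n + 1) → ℝ}
    (hp : p ∈ AffineMap.homothety x lam '' A) (k : Fin (n + 1)) : (1 - lam) * x k ≤ p k := by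
  obtain ⟨q, hq, rfl⟩ := hp
  simp only [AffineMap.homothety_apply, vsub_eq_sub, vadd_eq_add, Pi.add_apply, Pi.smul_apply,
    Pi.sub_apply, smul_eq_mul]
  have h4 : 0 ≤ lam * q k := mul_nonneg hl0 (hnn q hq k)
  linarith

theorem homothety_subset {A : Set (Fin (n + 1) → ℝ)} (hconv : Convex ℝ A)
    {x : Fin (n + 1) → ℝ} (hx : x ∈ A) {lam : ℝ} (hl0 : 0 ≤ lam) (hl1 : lam ≤ 1) :
    AffineMap.homothety x lam '' A ⊆ A := by
  rintro _ ⟨q, hq, rfl⟩
  have h := hconv hx hq (by linarith : (0 : ℝ) ≤ 1 - lam) hl0 (by ring)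
  have e : AffineMap.homothety x lam q = (1 - lam) • x + lam • q := by
    simp only [AffineMap.homothety_apply, vsub_eq_sub, vadd_eq_add]
    module
  rw [e]
  exact h

/-- The volume inequality for a fixed ratio `lam ∈ (0, 1]`. -/
theorem volume_pieces_le {A : Set (Fin (n + 1) → ℝ)} (hcl : IsClosed A) (hconv : Convex ℝ A)
    (hnn : ∀ p ∈ A, ∀ i, 0 ≤ p i)
    (hdown : ∀ p ∈ A, ∀ q : Fin (n + 1) → ℝ, (∀ i, 0 ≤ q i) → (∀ i, q i ≤ p i) → q ∈ A)
    {x : Fin (n + 1) → ℝ} (hx : x ∈ A) {lam : ℝ} (hl0 : 0 < lam) (hl1 : lam ≤ 1) :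
    ENNReal.ofReal (lam ^ (n + 1)) * volume A
      + ∑ i, ENNReal.ofReal ((1 - lam) * x i) * (ENNReal.ofReal (lam ^ n) * volume (abSec A i))
      ≤ volume A := by
  have hT : volume (AffineMap.homothety x lam '' A) = ENNReal.ofReal (lam ^ (n + 1)) * volume A := by
    rw [Measure.addHaar_image_homothety, Module.finrank_fin_fun,
      abs_of_nonneg (pow_nonneg hl0.le _)]
  have hU : volume (⋃ i, abCyl A x lam i)
      = ∑ i, ENNReal.ofReal ((1 - lam) * x i) * (ENNReal.ofReal (lam ^ n) * volume (abSec A i)) := by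
    rw [measure_iUnion ?_ (fun i => measurableSet_abCyl hcl x hl0.ne' i), tsum_fintype]
    · exact Finset.sum_congr rfl (fun i _ => volume_abCyl A x hl0.le i)
    · intro i k hik
      rw [Function.onFun, Set.disjoint_left]
      intro p hpi hpk
      have h1 := abCyl_coord_ge hnn hl0.le hpi (Ne.symm hik)
      have h2 := abCyl_coord_lt hpk
      linarith
  have hdisj : Disjoint (AffineMap.homothety x lam '' A) (⋃ i, abCyl A x lam i) := by
    rw [Set.disjoint_left]
    intro p hp hpU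
    obtain ⟨i, hpi⟩ := mem_iUnion.1 hpU
    have h1 := homothety_coord_ge hnn hl0.le hp i
    have h2 := abCyl_coord_lt hpi
    linarith
  have hsub : AffineMap.homothety x lam '' A ∪ ⋃ i, abCyl A x lam i ⊆ A := by
    apply union_subset (homothety_subset hconv hx hl0.le hl1)
    exact iUnion_subset (fun i => abCyl_subset hconv hnn hdown hx hl0.le hl1 i)
  have hmeasU : MeasurableSet (⋃ i, abCyl A x lam i) :=
    MeasurableSet.iUnion (fun i => measurableSet_abCyl hcl x hl0.ne' i)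
  calc ENNReal.ofReal (lam ^ (n + 1)) * volume A
        + ∑ i, ENNReal.ofReal ((1 - lam) * x i) * (ENNReal.ofReal (lam ^ n) * volume (abSec A i))
      = volume (AffineMap.homothety x lam '' A ∪ ⋃ i, abCyl A x lam i) := by
        rw [measure_union hdisj hmeasU, hT, hU]
    _ ≤ volume A := measure_mono hsub

/-- **Cone inequality for anti-blocking convex sets.** -/
theorem ab_cone_ineq (n : ℕ) (A : Set (Fin (n + 1) → ℝ)) (hcl : IsClosed A)
    (hconv : Convex ℝ A) (hnn : ∀ p ∈ A, ∀ i, 0 ≤ p i)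
    (hdown : ∀ p ∈ A, ∀ q : Fin (n + 1) → ℝ, (∀ i, 0 ≤ q i) → (∀ i, q i ≤ p i) → q ∈ A)
    (hfin : volume A ≠ ⊤) (x : Fin (n + 1) → ℝ) (hx : x ∈ A) :
    ∑ i, ENNReal.ofReal (x i) * volume {z : Fin n → ℝ | (Fin.insertNth i (0 : ℝ) z : Fin (n + 1) → ℝ) ∈ A}
      ≤ ((n : ℝ≥0∞) + 1) * volume A := by
  change ∑ i, ENNReal.ofReal (x i) * volume (abSec A i) ≤ ((n : ℝ≥0∞) + 1) * volume A
  set S : ℝ≥0∞ := ∑ i, ENNReal.ofReal (x i) * volume (abSec A i) with hS
  -- the inequality for each ratio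
  have E1 : ∀ lam : ℝ, 0 < lam → lam < 1 →
      ENNReal.ofReal (lam ^ (n + 1)) * volume A
        + ENNReal.ofReal (1 - lam) * ENNReal.ofReal (lam ^ n) * S ≤ volume A := by
    intro lam hl0 hl1
    have h := volume_pieces_le hcl hconv hnn hdown hx hl0 hl1.le
    have e : ∑ i, ENNReal.ofReal ((1 - lam) * x i) * (ENNReal.ofReal (lam ^ n) * volume (abSec A i))
        = ENNReal.ofReal (1 - lam) * ENNReal.ofReal (lam ^ n) * S := by
      rw [hS, Finset.mul_sum]
      apply Finset.sum_congr rfl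
      intro i _
      rw [ENNReal.ofReal_mul (by linarith : (0 : ℝ) ≤ 1 - lam)]
      ring
    rwa [e] at h
  -- `S` is finite
  have hSfin : S ≠ ⊤ := by
    intro htop
    have h := E1 (1 / 2) (by norm_num) (by norm_num)
    rw [htop] at h
    have hpos : ENNReal.ofReal (1 - 1 / 2) * ENNReal.ofReal ((1 / 2 : ℝ) ^ n) ≠ 0 := by
      apply mul_ne_zero
      · rw [Ne, ENNReal.ofReal_eq_zero]; norm_num
      · rw [Ne, ENNReal.ofReal_eq_zero, not_le]; positivity
    rw [ENNReal.mul_top hpos, add_top] at h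
    exact hfin (top_le_iff.1 h)
  set V : ℝ := (volume A).toReal with hV
  set σ : ℝ := S.toReal with hσ
  have hV0 : 0 ≤ V := ENNReal.toReal_nonneg
  have hσ0 : 0 ≤ σ := ENNReal.toReal_nonneg
  have hVe : volume A = ENNReal.ofReal V := (ENNReal.ofReal_toReal hfin).symm
  have hSe : S = ENNReal.ofReal σ := (ENNReal.ofReal_toReal hSfin).symm
  -- the real inequality
  have E2 : ∀ lam : ℝ, 0 < lam → lam < 1 → lam ^ n * σ ≤ ((n : ℝ) + 1) * V := by
    intro lam hl0 hl1
    have h := E1 lam hl0 hl1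
    rw [hVe, hSe, ← ENNReal.ofReal_mul (by positivity), ← ENNReal.ofReal_mul (by linarith),
      ← ENNReal.ofReal_mul (by positivity), ← ENNReal.ofReal_add (by positivity) (by positivity),
      ENNReal.ofReal_le_ofReal_iff hV0] at h
    have hbern : 1 + ((n + 1 : ℕ) : ℝ) * (lam - 1) ≤ lam ^ (n + 1) :=
      one_add_mul_sub_le_pow (by linarith) (n + 1)
    push_cast at hbern
    have h1 : 0 < 1 - lam := by linarith
    have h2 : (1 - lam) * (lam ^ n * σ) ≤ (1 - lam) * (((n : ℝ) + 1) * V) := by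
      have h3 : (1 - lam ^ (n + 1)) * V ≤ ((n : ℝ) + 1) * (1 - lam) * V := by
        apply mul_le_mul_of_nonneg_right _ hV0
        linarith
      nlinarith
    exact le_of_mul_le_mul_left h2 h1
  -- let `lam → 1`
  have hcont : Continuous (fun lam : ℝ => lam ^ n * σ) := by fun_prop
  have htend : Filter.Tendsto (fun lam : ℝ => lam ^ n * σ) (𝓝[<] 1) (𝓝 ((1 : ℝ) ^ n * σ)) :=
    (hcont.tendsto 1).mono_left nhdsWithin_le_nhds
  have hev : ∀ᶠ lam in 𝓝[<] (1 : ℝ), lam ^ n * σ ≤ ((n : ℝ) + 1) * V := by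
    filter_upwards [Ioo_mem_nhdsLT (show (0 : ℝ) < 1 by norm_num)] with lam hlam
    exact E2 lam hlam.1 hlam.2
  have hlim : (1 : ℝ) ^ n * σ ≤ ((n : ℝ) + 1) * V := le_of_tendsto htend hev
  rw [one_pow, one_mul] at hlim
  rw [hSe, hVe]
  have h5 : ((n : ℝ≥0∞) + 1) = ENNReal.ofReal ((n : ℝ) + 1) := by
    rw [ENNReal.ofReal_add (by positivity) (by norm_num), ENNReal.ofReal_natCast,
      ENNReal.ofReal_one]
  rw [h5, ← ENNReal.ofReal_mul (by positivity)]
  exact ENNReal.ofReal_le_ofReal hlim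

end Vale.Agent.Lib.P248.H55
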