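import Mathlib
import Vale.Agent.Lib.P248.helper55.ABCone

/-!
# P248 (helper55): the volume product of anti-blocking convex sets

`A ⊆ R^m` closed, convex, anti-blocking (in the closed positive orthant and down-closed there),
containing a cube `[0, ε]^m` and contained in `[0, R]^m`; its anti-blocking dual is
`abDual A = {y ≥ 0 | ∑ i, x i * y i ≤ 1 for all x ∈ A}`.  Then `|A| * |abDual A| ≥ 1 / m!`
(the inequality behind the volume product of unconditional convex bodies), by induction on `m`
from the cone inequality `ab_cone_ineq`.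
-/

namespace Vale.Agent.Lib.P248.H55

open MeasureTheory Set
open scoped ENNReal

/-- The anti-blocking dual of a set of the positive orthant. -/
def abDual {m : ℕ} (A : Set (Fin m → ℝ)) : Set (Fin m → ℝ) :=
  {y | (∀ i, 0 ≤ y i) ∧ ∀ x ∈ A, ∑ i, x i * y i ≤ 1}

/-- A closed convex anti-blocking set containing the cube `[0, ε]^m` and contained in
`[0, R]^m`. -/
structure ABGood {m : ℕ} (A : Set (Fin m → ℝ)) (ε R : ℝ) : Prop where
  closed : IsClosed A
  convex : Convex ℝ A
  nonneg : ∀ p ∈ A, ∀ i, 0 ≤ p i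
  down : ∀ p ∈ A, ∀ q : Fin m → ℝ, (∀ i, 0 ≤ q i) → (∀ i, q i ≤ p i) → q ∈ A
  eps_pos : 0 < ε
  cube : ∀ p : Fin m → ℝ, (∀ i, 0 ≤ p i) → (∀ i, p i ≤ ε) → p ∈ A
  bdd : ∀ p ∈ A, ∀ i, p i ≤ R

theorem ABGood.volume_ne_top {m : ℕ} {A : Set (Fin m → ℝ)} {ε R : ℝ} (h : ABGood A ε R) :
    volume A ≠ ⊤ := by
  have hsub : A ⊆ Icc (fun _ => (0 : ℝ)) (fun _ => R) :=
    fun p hp => ⟨fun i => h.nonneg p hp i, fun i => h.bdd p hp i⟩
  have h1 := measure_mono (μ := volume) hsub
  rw [Real.volume_Icc_pi] at h1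
  refine ne_top_of_le_ne_top ?_ h1
  exact ENNReal.prod_ne_top (fun i _ => ENNReal.ofReal_ne_top)

theorem ABGood.volume_pos {m : ℕ} {A : Set (Fin m → ℝ)} {ε R : ℝ} (h : ABGood A ε R) :
    0 < volume A := by
  have hsub : Icc (fun _ => (0 : ℝ)) (fun _ => ε) ⊆ A := fun p hp => h.cube p hp.1 hp.2
  have h1 := measure_mono (μ := volume) hsub
  rw [Real.volume_Icc_pi] at h1
  refine lt_of_lt_of_le ?_ h1
  simp only [sub_zero, Finset.prod_const]
  exact ENNReal.pow_pos (ENNReal.ofReal_pos.2 h.eps_pos) _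

/-- (L1) The dual of a good set is good. -/
theorem ABGood.dual {m : ℕ} {A : Set (Fin m → ℝ)} {ε R : ℝ} (h : ABGood A ε R) :
    ABGood (abDual A) (1 / ((m : ℝ) * |R| + 1)) (1 / ε) where
  closed := by
    have e : abDual A = (⋂ i, {y : Fin m → ℝ | 0 ≤ y i}) ∩
        ⋂ x ∈ A, {y : Fin m → ℝ | ∑ i, x i * y i ≤ 1} := by
      ext y
      simp [abDual]
    rw [e]
    apply IsClosed.inter
    · exact isClosed_iInter (fun i => isClosed_le continuous_const (continuous_apply i))
    · exact isClosed_biInter (fun x _ => isClosed_le (by fun_prop) continuous_const)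
  convex := by
    intro y1 h1 y2 h2 a b ha hb hab
    refine ⟨fun i => ?_, fun x hx => ?_⟩
    · simp only [Pi.add_apply, Pi.smul_apply, smul_eq_mul]
      exact add_nonneg (mul_nonneg ha (h1.1 i)) (mul_nonneg hb (h2.1 i))
    · have e : ∑ i, x i * (a • y1 + b • y2) i
          = a * ∑ i, x i * y1 i + b * ∑ i, x i * y2 i := by
        rw [Finset.mul_sum, Finset.mul_sum, ← Finset.sum_add_distrib]
        apply Finset.sum_congr rfl
        intro i _
        simp only [Pi.add_apply, Pi.smul_apply, smul_eq_mul]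
        ring
      rw [e]
      have e1 := mul_le_mul_of_nonneg_left (h1.2 x hx) ha
      have e2 := mul_le_mul_of_nonneg_left (h2.2 x hx) hb
      linarith
  nonneg := fun y hy i => hy.1 i
  down := by
    intro y hy q hq0 hqy
    refine ⟨hq0, fun x hx => le_trans ?_ (hy.2 x hx)⟩
    exact Finset.sum_le_sum (fun i _ => mul_le_mul_of_nonneg_left (hqy i) (h.nonneg x hx i))
  eps_pos := by positivity
  cube := by
    intro y hy0 hy1
    refine ⟨hy0, fun x hx => ?_⟩
    have hden : (0 : ℝ) < (m : ℝ) * |R| + 1 := by positivity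
    have h1 : ∀ i ∈ (Finset.univ : Finset (Fin m)), x i * y i ≤ |R| * (1 / ((m : ℝ) * |R| + 1)) := by
      intro i _
      exact mul_le_mul (le_trans (h.bdd x hx i) (le_abs_self R)) (hy1 i) (hy0 i) (abs_nonneg R)
    have h2 := Finset.sum_le_sum h1
    rw [Finset.sum_const, Finset.card_univ, Fintype.card_fin, nsmul_eq_mul] at h2
    refine le_trans h2 ?_
    rw [mul_one_div, ← mul_div_assoc, div_le_one hden]
    linarith
  bdd := by
    intro y hy i
    have hp : (Pi.single i ε : Fin m → ℝ) ∈ A := by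
      apply h.cube
      · intro k
        by_cases hk : k = i
        · subst hk; simp [h.eps_pos.le]
        · simp [hk]
      · intro k
        by_cases hk : k = i
        · subst hk; simp
        · simp [hk, h.eps_pos.le]
    have h1 := hy.2 _ hp
    have e : ∑ k, (Pi.single i ε : Fin m → ℝ) k * y k = ε * y i := by
      rw [Finset.sum_eq_single i]
      · simp
      · intro k _ hk
        simp [hk]
      · intro hi
        exact absurd (Finset.mem_univ i) hi
    rw [e] at h1
    rw [le_div_iff₀ h.eps_pos]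
    linarith

/-- (L2) Coordinate sections of a good set are good. -/
theorem ABGood.sec {n : ℕ} {A : Set (Fin (n + 1) → ℝ)} {ε R : ℝ} (h : ABGood A ε R)
    (i : Fin (n + 1)) : ABGood (abSec A i) ε R where
  closed := isClosed_abSec h.closed i
  convex := by
    intro z1 h1 z2 h2 a b ha hb hab
    have e : (Fin.insertNth i (0 : ℝ) (a • z1 + b • z2) : Fin (n + 1) → ℝ)
        = a • (Fin.insertNth i (0 : ℝ) z1 : Fin (n + 1) → ℝ)
          + b • (Fin.insertNth i (0 : ℝ) z2 : Fin (n + 1) → ℝ) := by
      funext k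
      refine Fin.succAboveCases i ?_ (fun j => ?_) k
      · simp
      · simp
    show (Fin.insertNth i (0 : ℝ) (a • z1 + b • z2) : Fin (n + 1) → ℝ) ∈ A
    rw [e]
    exact h.convex h1 h2 ha hb hab
  nonneg := fun z hz j => abSec_nonneg h.nonneg hz j
  down := by
    intro z hz q hq0 hqz
    show (Fin.insertNth i (0 : ℝ) q : Fin (n + 1) → ℝ) ∈ A
    apply h.down _ hz
    · rw [i.forall_iff_succAbove]
      refine ⟨by simp, fun j => ?_⟩
      rw [Fin.insertNth_apply_succAbove]
      exact hq0 j
    · rw [i.forall_iff_succAbove]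
      refine ⟨by simp, fun j => ?_⟩
      rw [Fin.insertNth_apply_succAbove, Fin.insertNth_apply_succAbove]
      exact hqz j
  eps_pos := h.eps_pos
  cube := by
    intro q hq0 hq1
    show (Fin.insertNth i (0 : ℝ) q : Fin (n + 1) → ℝ) ∈ A
    apply h.cube
    · rw [i.forall_iff_succAbove]
      refine ⟨by simp, fun j => ?_⟩
      rw [Fin.insertNth_apply_succAbove]
      exact hq0 j
    · rw [i.forall_iff_succAbove]
      refine ⟨by simpa using h.eps_pos.le, fun j => ?_⟩
      rw [Fin.insertNth_apply_succAbove]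
      exact hq1 j
  bdd := by
    intro z hz j
    have := h.bdd _ hz (i.succAbove j)
    rwa [Fin.insertNth_apply_succAbove] at this

/-- (L3) Sections of the dual are duals of the sections. -/
theorem abSec_abDual {n : ℕ} {A : Set (Fin (n + 1) → ℝ)} {ε R : ℝ} (h : ABGood A ε R)
    (i : Fin (n + 1)) : abSec (abDual A) i = abDual (abSec A i) := by
  ext y
  constructor
  · intro hy
    have hy' : (∀ k, 0 ≤ (Fin.insertNth i (0 : ℝ) y : Fin (n + 1) → ℝ) k) ∧
        ∀ x ∈ A, ∑ k, x k * (Fin.insertNth i (0 : ℝ) y : Fin (n + 1) → ℝ) k ≤ 1 := hy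
    refine ⟨fun j => ?_, fun z hz => ?_⟩
    · have := hy'.1 (i.succAbove j)
      rwa [Fin.insertNth_apply_succAbove] at this
    · have h1 := hy'.2 _ hz
      rw [Fin.sum_univ_succAbove _ i] at h1
      simpa using h1
  · intro hy
    have hy' : (∀ j, 0 ≤ y j) ∧ ∀ z ∈ abSec A i, ∑ j, z j * y j ≤ 1 := hy
    show (∀ k, 0 ≤ (Fin.insertNth i (0 : ℝ) y : Fin (n + 1) → ℝ) k) ∧
        ∀ x ∈ A, ∑ k, x k * (Fin.insertNth i (0 : ℝ) y : Fin (n + 1) → ℝ) k ≤ 1
    refine ⟨?_, fun x hx => ?_⟩
    · rw [i.forall_iff_succAbove]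
      refine ⟨by simp, fun j => ?_⟩
      rw [Fin.insertNth_apply_succAbove]
      exact hy'.1 j
    · have hz : (fun j => x (i.succAbove j)) ∈ abSec A i := by
        show (Fin.insertNth i (0 : ℝ) (fun j => x (i.succAbove j)) : Fin (n + 1) → ℝ) ∈ A
        apply h.down x hx
        · rw [i.forall_iff_succAbove]
          refine ⟨by simp, fun j => ?_⟩
          rw [Fin.insertNth_apply_succAbove]
          exact h.nonneg x hx _
        · rw [i.forall_iff_succAbove]
          refine ⟨by simpa using h.nonneg x hx i, fun j => ?_⟩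
          rw [Fin.insertNth_apply_succAbove]
      have h1 := hy'.2 _ hz
      rw [Fin.sum_univ_succAbove _ i]
      simpa using h1

/-- The cone inequality in real form. -/
theorem ab_cone_real {n : ℕ} {A : Set (Fin (n + 1) → ℝ)} {ε R : ℝ} (h : ABGood A ε R)
    {x : Fin (n + 1) → ℝ} (hx : x ∈ A) :
    ∑ i, x i * (volume (abSec A i)).toReal ≤ ((n : ℝ) + 1) * (volume A).toReal := by
  have h0 := ab_cone_ineq n A h.closed h.convex h.nonneg h.down h.volume_ne_top x hx
  change ∑ i, ENNReal.ofReal (x i) * volume (abSec A i) ≤ ((n : ℝ≥0∞) + 1) * volume A at h0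
  have hne : ((n : ℝ≥0∞) + 1) * volume A ≠ ⊤ :=
    ENNReal.mul_ne_top (by simp) h.volume_ne_top
  have h1 := ENNReal.toReal_mono hne h0
  rw [ENNReal.toReal_sum
    (fun i _ => ENNReal.mul_ne_top ENNReal.ofReal_ne_top (h.sec i).volume_ne_top),
    ENNReal.toReal_mul] at h1
  have e1 : ∀ i, (ENNReal.ofReal (x i) * volume (abSec A i)).toReal
      = x i * (volume (abSec A i)).toReal := by
    intro i
    rw [ENNReal.toReal_mul, ENNReal.toReal_ofReal (h.nonneg x hx i)]
  simp only [e1] at h1
  have e2 : ((n : ℝ≥0∞) + 1).toReal = (n : ℝ) + 1 := by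
    rw [ENNReal.toReal_add (by simp) (by simp)]
    simp
  rw [e2] at h1
  exact h1

/-- **Volume product of anti-blocking convex sets.** -/
theorem ab_volume_product : ∀ (m : ℕ) (A : Set (Fin m → ℝ)) (ε R : ℝ), ABGood A ε R →
    ENNReal.ofReal (1 / (m.factorial : ℝ)) ≤ volume A * volume (abDual A) := by
  intro m
  induction m with
  | zero =>
    intro A ε R h
    have hA : A = univ :=
      Set.eq_univ_of_forall (fun p => h.cube p (fun i => i.elim0) (fun i => i.elim0))
    have hD : abDual A = univ := by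
      apply Set.eq_univ_of_forall
      intro y
      exact ⟨fun i => i.elim0, fun x _ => by simp⟩
    have hu : volume (univ : Set (Fin 0 → ℝ)) = 1 := by
      rw [volume_pi, Measure.pi_univ]
      simp
    rw [hD, hA, hu]
    simp
  | succ n ih =>
    intro A ε R h
    have hd := h.dual
    set V : ℝ := (volume A).toReal with hV
    set W : ℝ := (volume (abDual A)).toReal with hW
    have hVpos : 0 < V := ENNReal.toReal_pos h.volume_pos.ne' h.volume_ne_top
    have hW0 : 0 ≤ W := ENNReal.toReal_nonneg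
    set s : Fin (n + 1) → ℝ := fun i => (volume (abSec A i)).toReal with hs
    set d : Fin (n + 1) → ℝ := fun i => (volume (abDual (abSec A i))).toReal with hdd
    have hs0 : ∀ i, 0 ≤ s i := fun i => ENNReal.toReal_nonneg
    have hd0 : ∀ i, 0 ≤ d i := fun i => ENNReal.toReal_nonneg
    -- induction hypothesis in real form
    have hih : ∀ i, 1 / (n.factorial : ℝ) ≤ s i * d i := by
      intro i
      have h1 := ih (abSec A i) ε R (h.sec i)
      have hne : volume (abSec A i) * volume (abDual (abSec A i)) ≠ ⊤ :=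
        ENNReal.mul_ne_top (h.sec i).volume_ne_top (h.sec i).dual.volume_ne_top
      have h2 := (ENNReal.ofReal_le_iff_le_toReal hne).1 h1
      rwa [ENNReal.toReal_mul] at h2
    have hden : 0 < ((n : ℝ) + 1) * V := by positivity
    -- the point `v` of the dual
    set v : Fin (n + 1) → ℝ := fun i => s i / (((n : ℝ) + 1) * V) with hv
    have hvmem : v ∈ abDual A := by
      refine ⟨fun i => div_nonneg (hs0 i) hden.le, fun x hx => ?_⟩
      have h1 := ab_cone_real h hx
      have e : ∑ i, x i * v i = (∑ i, x i * s i) / (((n : ℝ) + 1) * V) := by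
        rw [Finset.sum_div]
        apply Finset.sum_congr rfl
        intro i _
        rw [hv]
        ring
      rw [e, div_le_one hden]
      exact h1
    -- the cone inequality for the dual at `v`
    have h2 := ab_cone_real hd hvmem
    have e2 : ∀ i, (volume (abSec (abDual A) i)).toReal = d i := by
      intro i
      rw [abSec_abDual h i]
    simp only [e2] at h2
    have h3 : ∑ i, s i * d i ≤ ((n : ℝ) + 1) ^ 2 * (V * W) := by
      have e : ∑ i, v i * d i = (∑ i, s i * d i) / (((n : ℝ) + 1) * V) := by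
        rw [Finset.sum_div]
        apply Finset.sum_congr rfl
        intro i _
        rw [hv]
        ring
      rw [e, div_le_iff₀ hden] at h2
      calc ∑ i, s i * d i ≤ ((n : ℝ) + 1) * W * (((n : ℝ) + 1) * V) := h2
        _ = ((n : ℝ) + 1) ^ 2 * (V * W) := by ring
    have h4 : ((n : ℝ) + 1) * (1 / (n.factorial : ℝ)) ≤ ∑ i, s i * d i := by
      have := Finset.sum_le_sum (fun i (_ : i ∈ (Finset.univ : Finset (Fin (n + 1)))) => hih i)
      rw [Finset.sum_const, Finset.card_univ, Fintype.card_fin, nsmul_eq_mul] at this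
      push_cast at this
      exact this
    have hfact : (0 : ℝ) < (n.factorial : ℝ) := by positivity
    have hn1 : (0 : ℝ) < (n : ℝ) + 1 := by positivity
    have h5 : 1 / (((n + 1).factorial : ℕ) : ℝ) ≤ V * W := by
      rw [Nat.factorial_succ]
      push_cast
      rw [div_le_iff₀ (by positivity)]
      have h6 : ((n : ℝ) + 1) * (1 / (n.factorial : ℝ)) ≤ ((n : ℝ) + 1) ^ 2 * (V * W) :=
        le_trans h4 h3
      rw [mul_one_div, div_le_iff₀ hfact] at h6
      have h7 : ((n : ℝ) + 1) * 1 ≤ ((n : ℝ) + 1) * (V * W * (((n : ℝ) + 1) * (n.factorial : ℝ))) := by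
        calc ((n : ℝ) + 1) * 1 = (n : ℝ) + 1 := by ring
          _ ≤ ((n : ℝ) + 1) ^ 2 * (V * W) * (n.factorial : ℝ) := h6
          _ = ((n : ℝ) + 1) * (V * W * (((n : ℝ) + 1) * (n.factorial : ℝ))) := by ring
      exact le_of_mul_le_mul_left h7 hn1
    have hfin : volume A * volume (abDual A) ≠ ⊤ :=
      ENNReal.mul_ne_top h.volume_ne_top hd.volume_ne_top
    rw [ENNReal.ofReal_le_iff_le_toReal hfin, ENNReal.toReal_mul]
    exact h5

end Vale.Agent.Lib.P248.H55
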