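import Mathlib

/-!
# P248 (helper55): the cone inequality in one variable (backup copy of job A)

For a concave, antitone, nonnegative profile `a` on `[0, h]`, a point `(t0, r0)` under its graph
and `m : ℕ`:
`t0 * a 0 ^ (m + 1) + (m + 1) * r0 * ∫_0^h a ^ m ≤ (m + 2) * ∫_0^h a ^ (m + 1)`.
-/

namespace Vale.Agent.Lib.P248.H55

open MeasureTheory Set
open scoped ENNReal Topology

theorem pow_succ_ge (m : ℕ) {x y : ℝ} (hx : 0 ≤ x) (hy : 0 ≤ y) :
    y ^ (m + 1) + (m + 1) * x * y ^ m ≤ (x + y) ^ (m + 1) := by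
  induction m with
  | zero => simp; linarith
  | succ k ih =>
    have h2 : (x + y) * (y ^ (k + 1) + (k + 1) * x * y ^ k) ≤ (x + y) * (x + y) ^ (k + 1) :=
      mul_le_mul_of_nonneg_left ih (by linarith)
    have h3 : 0 ≤ ((k : ℝ) + 1) * x ^ 2 * y ^ k := by positivity
    have h4 : (x + y) * (y ^ (k + 1) + (k + 1) * x * y ^ k)
        = y ^ (k + 1 + 1) + ((k : ℝ) + 1 + 1) * x * y ^ (k + 1) + ((k : ℝ) + 1) * x ^ 2 * y ^ k := by
      ring
    have h5 : (x + y) ^ (k + 1 + 1) = (x + y) * (x + y) ^ (k + 1) := by ring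
    push_cast
    rw [h5]
    linarith

theorem cone_ineq {h : ℝ} (hh : 0 < h) {a : ℝ → ℝ}
    (hc : ConcaveOn ℝ (Icc 0 h) a) (hanti : AntitoneOn a (Icc 0 h))
    (hpos : ∀ t ∈ Icc 0 h, 0 ≤ a t) (m : ℕ) {t0 r0 : ℝ} (ht0 : t0 ∈ Icc 0 h)
    (hr0 : 0 ≤ r0) (hr0' : r0 ≤ a t0) :
    t0 * a 0 ^ (m + 1) + (m + 1) * r0 * (∫ t in (0:ℝ)..h, a t ^ m) ≤
      (m + 2) * ∫ t in (0:ℝ)..h, a t ^ (m + 1) := by
  have h0mem : (0 : ℝ) ∈ Icc 0 h := ⟨le_refl 0, hh.le⟩
  have hhmem : h ∈ Icc 0 h := ⟨hh.le, le_refl h⟩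
  -- powers of `a` are antitone on `[0, h]`, hence interval integrable on subintervals
  have hF : ∀ k : ℕ, AntitoneOn (fun t => a t ^ k) (Icc 0 h) := by
    intro k x hx y hy hxy
    exact pow_le_pow_left₀ (hpos y hy) (hanti hx hy hxy) k
  have hint : ∀ (k : ℕ) (p q : ℝ), 0 ≤ p → p ≤ q → q ≤ h →
      IntervalIntegrable (fun t => a t ^ k) volume p q := by
    intro k p q hp hpq hq
    apply AntitoneOn.intervalIntegrable
    rw [uIcc_of_le hpq]
    exact (hF k).mono (Icc_subset_Icc hp hq)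
  set Im : ℝ := ∫ t in (0:ℝ)..h, a t ^ m with hIm
  set Im1 : ℝ := ∫ t in (0:ℝ)..h, a t ^ (m + 1) with hIm1
  have hIm1_nonneg : 0 ≤ Im1 :=
    intervalIntegral.integral_nonneg hh.le (fun u hu => pow_nonneg (hpos u hu) _)
  -- the inequality for every `lam ∈ [0, 1)`
  have F2 : ∀ lam : ℝ, 0 ≤ lam → lam < 1 →
      t0 * (a 0 * (1 - (1 - lam) * t0 / h)) ^ (m + 1) + (m + 1) * r0 * lam ^ (m + 1) * Im
        ≤ (m + 2) * Im1 := by
    intro lam hl0 hl1
    have hl1' : 0 < 1 - lam := by linarith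
    set c : ℝ := (1 - lam) * t0 with hcdef
    have hc0 : 0 ≤ c := mul_nonneg hl1'.le ht0.1
    have hcle : c ≤ (1 - lam) * h := mul_le_mul_of_nonneg_left ht0.2 hl1'.le
    have hlh : 0 ≤ lam * h := mul_nonneg hl0 hh.le
    have hd : c + lam * h ≤ h := by nlinarith
    have hch : c ≤ h := by linarith
    have hcmem : c ∈ Icc 0 h := ⟨hc0, hch⟩
    -- piece 1
    have hac : a 0 * (1 - c / h) ≤ a c := by
      have h1 : 0 ≤ 1 - c / h := by
        rw [sub_nonneg, div_le_one hh]; exact hch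
      have h2 : 0 ≤ c / h := div_nonneg hc0 hh.le
      have h3 := hc.2 h0mem hhmem h1 h2 (by ring)
      have h4 : (1 - c / h) • (0 : ℝ) + (c / h) • h = c := by
        simp only [smul_eq_mul, mul_zero, zero_add]
        field_simp
      rw [h4] at h3
      simp only [smul_eq_mul] at h3
      have h5 : 0 ≤ c / h * a h := mul_nonneg h2 (hpos h hhmem)
      linarith
    have hX0 : 0 ≤ a 0 * (1 - c / h) := by
      apply mul_nonneg (hpos 0 h0mem)
      rw [sub_nonneg, div_le_one hh]; exact hch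
    have P1 : c * (a 0 * (1 - c / h)) ^ (m + 1) ≤ ∫ u in (0:ℝ)..c, a u ^ (m + 1) := by
      have hconst : ∫ _u in (0:ℝ)..c, (a 0 * (1 - c / h)) ^ (m + 1)
          = c * (a 0 * (1 - c / h)) ^ (m + 1) := by
        rw [intervalIntegral.integral_const]; simp
      rw [← hconst]
      apply intervalIntegral.integral_mono_on hc0 intervalIntegrable_const
        (hint (m + 1) 0 c le_rfl hc0 hch)
      intro u hu
      have hu' : u ∈ Icc 0 h := ⟨hu.1, le_trans hu.2 hch⟩
      have : a c ≤ a u := hanti hu' hcmem hu.2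
      exact pow_le_pow_left₀ hX0 (le_trans hac this) _
    -- piece 3
    have P3 : 0 ≤ ∫ u in (c + lam * h)..h, a u ^ (m + 1) :=
      intervalIntegral.integral_nonneg hd
        (fun u hu => pow_nonneg (hpos u ⟨le_trans (by linarith) hu.1, hu.2⟩) _)
    -- piece 2
    have hsub : lam * ∫ t in (0:ℝ)..h, a (c + lam * t) ^ (m + 1)
        = ∫ s in c..(c + lam * h), a s ^ (m + 1) := by
      have := intervalIntegral.smul_integral_comp_add_mul (a := (0:ℝ)) (b := h)
        (fun s => a s ^ (m + 1)) lam c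
      simp only [smul_eq_mul, mul_zero, add_zero] at this
      exact this
    have hmemt : ∀ t ∈ Icc (0:ℝ) h, c + lam * t ∈ Icc 0 h := by
      intro t ht
      refine ⟨add_nonneg hc0 (mul_nonneg hl0 ht.1), ?_⟩
      have : lam * t ≤ lam * h := mul_le_mul_of_nonneg_left ht.2 hl0
      linarith
    have hintL : IntervalIntegrable (fun t => a (c + lam * t) ^ (m + 1)) volume 0 h := by
      apply AntitoneOn.intervalIntegrable
      rw [uIcc_of_le hh.le]
      intro x hx y hy hxy
      have : c + lam * x ≤ c + lam * y := by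
        have := mul_le_mul_of_nonneg_left hxy hl0
        linarith
      exact pow_le_pow_left₀ (hpos _ (hmemt y hy)) (hanti (hmemt x hx) (hmemt y hy) this) _
    have hintR : IntervalIntegrable
        (fun t => lam ^ (m + 1) * a t ^ (m + 1)
          + ((m + 1) * ((1 - lam) * r0) * lam ^ m) * a t ^ m) volume 0 h :=
      ((hint (m + 1) 0 h le_rfl hh.le le_rfl).const_mul _).add
        ((hint m 0 h le_rfl hh.le le_rfl).const_mul _)
    have P2 : lam ^ (m + 1) * Im1 + ((m + 1) * ((1 - lam) * r0) * lam ^ m) * Im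
        ≤ ∫ t in (0:ℝ)..h, a (c + lam * t) ^ (m + 1) := by
      have hsplit : ∫ t in (0:ℝ)..h, (lam ^ (m + 1) * a t ^ (m + 1)
          + ((m + 1) * ((1 - lam) * r0) * lam ^ m) * a t ^ m)
          = lam ^ (m + 1) * Im1 + ((m + 1) * ((1 - lam) * r0) * lam ^ m) * Im := by
        rw [intervalIntegral.integral_add
          ((hint (m + 1) 0 h le_rfl hh.le le_rfl).const_mul _)
          ((hint m 0 h le_rfl hh.le le_rfl).const_mul _),
          intervalIntegral.integral_const_mul, intervalIntegral.integral_const_mul]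
      rw [← hsplit]
      apply intervalIntegral.integral_mono_on hh.le hintR hintL
      intro t ht
      have hconc := hc.2 ht0 ht hl1'.le hl0 (by ring : (1 - lam) + lam = 1)
      simp only [smul_eq_mul] at hconc
      have hx : 0 ≤ (1 - lam) * r0 := mul_nonneg hl1'.le hr0
      have hy : 0 ≤ lam * a t := mul_nonneg hl0 (hpos t ht)
      have h1 : (1 - lam) * r0 + lam * a t ≤ a (c + lam * t) := by
        have : (1 - lam) * r0 ≤ (1 - lam) * a t0 := mul_le_mul_of_nonneg_left hr0' hl1'.le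
        linarith
      have h2 := pow_succ_ge m hx hy
      have h3 : ((1 - lam) * r0 + lam * a t) ^ (m + 1) ≤ a (c + lam * t) ^ (m + 1) :=
        pow_le_pow_left₀ (add_nonneg hx hy) h1 _
      have h4 : lam ^ (m + 1) * a t ^ (m + 1) + ((m + 1) * ((1 - lam) * r0) * lam ^ m) * a t ^ m
          = (lam * a t) ^ (m + 1) + (m + 1) * ((1 - lam) * r0) * (lam * a t) ^ m := by
        rw [mul_pow, mul_pow]; ring
      rw [h4]
      exact le_trans h2 h3
    -- split the integral
    have hsplit3 : Im1 = (∫ u in (0:ℝ)..c, a u ^ (m + 1))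
        + (∫ s in c..(c + lam * h), a s ^ (m + 1))
        + ∫ u in (c + lam * h)..h, a u ^ (m + 1) := by
      rw [intervalIntegral.integral_add_adjacent_intervals
          (hint (m + 1) 0 c le_rfl hc0 hch)
          (hint (m + 1) c (c + lam * h) hc0 (by linarith) hd),
        intervalIntegral.integral_add_adjacent_intervals
          (hint (m + 1) 0 (c + lam * h) le_rfl (by linarith) hd)
          (hint (m + 1) (c + lam * h) h (by linarith) hd le_rfl)]
    have hmain : c * (a 0 * (1 - c / h)) ^ (m + 1)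
        + lam * (lam ^ (m + 1) * Im1 + ((m + 1) * ((1 - lam) * r0) * lam ^ m) * Im) ≤ Im1 := by
      have := mul_le_mul_of_nonneg_left P2 hl0
      rw [hsub] at this
      linarith
    have hbern : 1 + ((m + 2 : ℕ) : ℝ) * (lam - 1) ≤ lam ^ (m + 2) :=
      one_add_mul_sub_le_pow (by linarith) (m + 2)
    push_cast at hbern
    have hb2 : (1 - lam ^ (m + 2)) * Im1 ≤ ((m : ℝ) + 2) * (1 - lam) * Im1 := by
      apply mul_le_mul_of_nonneg_right _ hIm1_nonneg
      linarith
    have hcdiv : (1 - lam) * t0 / h = c / h := by rw [hcdef]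
    rw [hcdiv]
    have hfinal : (1 - lam) * (t0 * (a 0 * (1 - c / h)) ^ (m + 1)
        + (m + 1) * r0 * lam ^ (m + 1) * Im) ≤ (1 - lam) * ((m + 2) * Im1) := by
      have e1 : (1 - lam) * (t0 * (a 0 * (1 - c / h)) ^ (m + 1)
          + (m + 1) * r0 * lam ^ (m + 1) * Im)
          = c * (a 0 * (1 - c / h)) ^ (m + 1)
            + lam * (lam ^ (m + 1) * Im1 + ((m + 1) * ((1 - lam) * r0) * lam ^ m) * Im)
            - lam ^ (m + 2) * Im1 := by
        rw [hcdef]; ring
      have e2 : (1 - lam) * ((m + 2) * Im1) = ((m : ℝ) + 2) * (1 - lam) * Im1 := by ring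
      rw [e1, e2]
      have e3 : (1 - lam ^ (m + 2)) * Im1 = Im1 - lam ^ (m + 2) * Im1 := by ring
      linarith
    exact le_of_mul_le_mul_left hfinal hl1'
  -- let `lam → 1`
  set g : ℝ → ℝ := fun lam =>
    t0 * (a 0 * (1 - (1 - lam) * t0 / h)) ^ (m + 1) + (m + 1) * r0 * lam ^ (m + 1) * Im with hg
  have hcont : Continuous g := by
    rw [hg]; fun_prop
  have htend : Filter.Tendsto g (𝓝[<] 1) (𝓝 (g 1)) :=
    (hcont.tendsto 1).mono_left nhdsWithin_le_nhds
  have hev : ∀ᶠ lam in 𝓝[<] (1:ℝ), g lam ≤ (m + 2) * Im1 := by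
    filter_upwards [Ioo_mem_nhdsLT (show (0:ℝ) < 1 by norm_num)] with lam hlam
    exact F2 lam hlam.1.le hlam.2
  have hlim : g 1 ≤ (m + 2) * Im1 := le_of_tendsto htend hev
  have hg1 : g 1 = t0 * a 0 ^ (m + 1) + (m + 1) * r0 * Im := by
    simp [hg]
  rw [hg1] at hlim
  exact hlim

end Vale.Agent.Lib.P248.H55
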