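import Mathlib
import Vale.Agent.Lib.P248.helper61.DualProf

/-!
# P248 (helper55): basic properties of the dual profile

For an antitone nonnegative profile `a` on `[0, h]` with `a 0 > 0`, the dual profile
`b τ = inf {(1 - t τ) / a t : t ∈ [0, h], a t > 0}` is concave, antitone and nonnegative on
`[0, 1 / h]`, `b 0 = 1 / a 0`, and `b τ` is the largest `ρ` with `ρ * a t ≤ 1 - t τ` for all
admissible `t`.
-/

namespace Vale.Agent.Lib.P248.H55

open MeasureTheory Set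
open scoped ENNReal
open Vale.Agent.Lib.P248.H61

theorem dualProf_props {h : ℝ} (hh : 0 < h) {a : ℝ → ℝ}
    (hanti : AntitoneOn a (Icc 0 h)) (hpos : ∀ t ∈ Icc 0 h, 0 ≤ a t) (ha0 : 0 < a 0) :
    ConcaveOn ℝ (Icc 0 (1 / h)) (dualProf h a) ∧
    AntitoneOn (dualProf h a) (Icc 0 (1 / h)) ∧
    (∀ τ ∈ Icc 0 (1 / h), 0 ≤ dualProf h a τ) ∧
    dualProf h a 0 = 1 / a 0 ∧
    (∀ τ ∈ Icc 0 (1 / h), ∀ ρ : ℝ,
      (∀ t ∈ Icc 0 h, 0 < a t → ρ * a t ≤ 1 - t * τ) → ρ ≤ dualProf h a τ) ∧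
    (∀ τ ∈ Icc 0 (1 / h), ∀ t ∈ Icc 0 h, 0 < a t → dualProf h a τ ≤ (1 - t * τ) / a t) := by
  have _hp := hpos
  have h0mem : (0 : ℝ) ∈ Icc 0 h := ⟨le_refl 0, hh.le⟩
  -- the image set is nonempty
  have hne : ∀ τ : ℝ,
      ((fun t : ℝ => (1 - t * τ) / a t) '' {t | t ∈ Icc 0 h ∧ 0 < a t}).Nonempty := by
    intro τ
    exact ⟨_, ⟨0, ⟨h0mem, ha0⟩, rfl⟩⟩
  -- every element is nonnegative when `τ ∈ [0, 1 / h]`
  have hnn : ∀ τ ∈ Icc 0 (1 / h), ∀ t ∈ Icc 0 h, 0 < a t → 0 ≤ (1 - t * τ) / a t := by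
    intro τ hτ t ht hat
    have h1 : t * τ ≤ h * (1 / h) := mul_le_mul ht.2 hτ.2 hτ.1 hh.le
    have h2 : h * (1 / h) = 1 := by field_simp
    exact div_nonneg (by linarith) hat.le
  have hbdd : ∀ τ ∈ Icc 0 (1 / h),
      BddBelow ((fun t : ℝ => (1 - t * τ) / a t) '' {t | t ∈ Icc 0 h ∧ 0 < a t}) := by
    intro τ hτ
    refine ⟨0, ?_⟩
    rintro _ ⟨t, ⟨ht, hat⟩, rfl⟩
    exact hnn τ hτ t ht hat
  -- the upper bound property
  have hle : ∀ τ ∈ Icc 0 (1 / h), ∀ t ∈ Icc 0 h, 0 < a t →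
      dualProf h a τ ≤ (1 - t * τ) / a t := by
    intro τ hτ t ht hat
    exact csInf_le (hbdd τ hτ) ⟨t, ⟨ht, hat⟩, rfl⟩
  -- the greatest lower bound property
  have hge : ∀ τ : ℝ, ∀ ρ : ℝ,
      (∀ t ∈ Icc 0 h, 0 < a t → ρ ≤ (1 - t * τ) / a t) → ρ ≤ dualProf h a τ := by
    intro τ ρ hρ
    refine le_csInf (hne τ) ?_
    rintro _ ⟨t, ⟨ht, hat⟩, rfl⟩
    exact hρ t ht hat
  refine ⟨⟨convex_Icc _ _, ?_⟩, ?_, ?_, ?_, ?_, hle⟩
  · -- concavity
    intro τ1 hτ1 τ2 hτ2 α β hα hβ hαβ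
    apply hge
    intro t ht hat
    have e1 := hle τ1 hτ1 t ht hat
    have e2 := hle τ2 hτ2 t ht hat
    have key : (1 - t * (α • τ1 + β • τ2)) / a t
        = α * ((1 - t * τ1) / a t) + β * ((1 - t * τ2) / a t) := by
      have hα' : α = 1 - β := by linarith
      simp only [smul_eq_mul]
      rw [hα']
      field_simp
      ring
    rw [key]
    simp only [smul_eq_mul]
    exact add_le_add (mul_le_mul_of_nonneg_left e1 hα) (mul_le_mul_of_nonneg_left e2 hβ)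
  · -- antitone
    intro τ1 hτ1 τ2 hτ2 h12
    apply hge
    intro t ht hat
    refine le_trans (hle τ2 hτ2 t ht hat) ?_
    apply div_le_div_of_nonneg_right _ hat.le
    have : t * τ1 ≤ t * τ2 := mul_le_mul_of_nonneg_left h12 ht.1
    linarith
  · -- nonnegative
    intro τ hτ
    apply hge
    intro t ht hat
    exact hnn τ hτ t ht hat
  · -- value at zero
    apply le_antisymm
    · have := hle 0 ⟨le_refl 0, by positivity⟩ 0 h0mem ha0
      simpa using this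
    · apply hge
      intro t ht hat
      have hle' : a t ≤ a 0 := hanti h0mem ht ht.1
      simp only [mul_zero, sub_zero]
      exact one_div_le_one_div_of_le hat hle'
  · -- largest admissible value
    intro τ hτ ρ hρ
    apply hge
    intro t ht hat
    rw [le_div_iff₀ hat]
    exact hρ t ht hat

end Vale.Agent.Lib.P248.H55
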