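import Mathlib
import Vale.Agent.Lib.P248.helper61.DualProf
import Vale.Agent.Lib.P248.helper55.DualProfProps
import Vale.Agent.Lib.P248.helper55.ConeIneq

/-!
# P248 (helper55): the one-variable Mahler-type inequality for a profile and its dual profile

For a concave, antitone, nonnegative profile `a` on `[0, h]` with `a 0 > 0` and its dual profile
`b = dualProf h a` on `[0, 1 / h]`:
`1 / (m + 1) ≤ (∫_0^h a ^ m) * (∫_0^(1/h) b ^ m)` for every `m : ℕ`.
-/

namespace Vale.Agent.Lib.P248.H55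

open MeasureTheory Set
open Vale.Agent.Lib.P248.H61

theorem prod_ge {h : ℝ} (hh : 0 < h) {a : ℝ → ℝ}
    (hc : ConcaveOn ℝ (Icc 0 h) a) (hanti : AntitoneOn a (Icc 0 h))
    (hpos : ∀ t ∈ Icc 0 h, 0 ≤ a t) (ha0 : 0 < a 0) (m : ℕ) :
    1 / ((m : ℝ) + 1) ≤
      (∫ t in (0:ℝ)..h, a t ^ m) * (∫ τ in (0:ℝ)..(1 / h), dualProf h a τ ^ m) := by
  obtain ⟨hbc, hbanti, hbpos, hb0, hbsup, _hble⟩ := dualProf_props hh hanti hpos ha0
  have hh' : 0 < 1 / h := by positivity
  have hhmem : h ∈ Icc 0 h := ⟨hh.le, le_refl h⟩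
  induction m with
  | zero =>
    simp only [pow_zero, intervalIntegral.integral_const, sub_zero, smul_eq_mul, mul_one,
      Nat.cast_zero, zero_add]
    have : h * (1 / h) = 1 := by field_simp
    rw [this]; norm_num
  | succ k ih =>
    set u : ℝ := ∫ t in (0:ℝ)..h, a t ^ k with hu
    set v : ℝ := ∫ τ in (0:ℝ)..(1 / h), dualProf h a τ ^ k with hv
    set U : ℝ := ∫ t in (0:ℝ)..h, a t ^ (k + 1) with hU
    set V : ℝ := ∫ τ in (0:ℝ)..(1 / h), dualProf h a τ ^ (k + 1) with hV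
    have hk1 : (0:ℝ) < (k : ℝ) + 1 := by positivity
    have hk2 : (0:ℝ) < (k : ℝ) + 2 := by positivity
    have hu0 : 0 ≤ u :=
      intervalIntegral.integral_nonneg hh.le (fun t ht => pow_nonneg (hpos t ht) _)
    -- `U > 0`
    have hUh := cone_ineq hh hc hanti hpos k (t0 := h) (r0 := 0) hhmem le_rfl (hpos h hhmem)
    simp only [mul_zero, zero_mul, add_zero] at hUh
    have hapow : 0 < a 0 ^ (k + 1) := pow_pos ha0 _
    have hUpos : 0 < U := by
      have : 0 < h * a 0 ^ (k + 1) := mul_pos hh hapow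
      by_contra hneg
      push Not at hneg
      have : ((k : ℝ) + 2) * U ≤ 0 := mul_nonpos_of_nonneg_of_nonpos hk2.le hneg
      linarith
    have hden : 0 < ((k : ℝ) + 2) * U := mul_pos hk2 hUpos
    set τ1 : ℝ := a 0 ^ (k + 1) / (((k : ℝ) + 2) * U) with hτ1
    set ρ1 : ℝ := ((k : ℝ) + 1) * u / (((k : ℝ) + 2) * U) with hρ1
    have hτ1mem : τ1 ∈ Icc 0 (1 / h) := by
      refine ⟨by positivity, ?_⟩
      rw [hτ1, div_le_div_iff₀ hden hh]
      linarith
    have hρ10 : 0 ≤ ρ1 := by positivity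
    have hρ1le : ρ1 ≤ dualProf h a τ1 := by
      apply hbsup τ1 hτ1mem ρ1
      intro t ht _hat
      have hcone := cone_ineq hh hc hanti hpos k (t0 := t) (r0 := a t) ht (hpos t ht) le_rfl
      have e : ρ1 * a t + t * τ1 = (t * a 0 ^ (k + 1) + ((k : ℝ) + 1) * a t * u)
          / (((k : ℝ) + 2) * U) := by
        rw [hρ1, hτ1]; field_simp; ring
      have : ρ1 * a t + t * τ1 ≤ 1 := by
        rw [e, div_le_one hden]; exact hcone
      linarith
    have hcone2 := cone_ineq hh' hbc hbanti hbpos k (t0 := τ1) (r0 := ρ1) hτ1mem hρ10 hρ1le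
    rw [hb0] at hcone2
    -- rewrite the left side
    have e2 : τ1 * (1 / a 0) ^ (k + 1) + ((k : ℝ) + 1) * ρ1 * v
        = (1 + ((k : ℝ) + 1) ^ 2 * (u * v)) / (((k : ℝ) + 2) * U) := by
      rw [hρ1, hτ1, one_div, inv_pow]
      field_simp
    rw [e2, div_le_iff₀ hden] at hcone2
    have ih' : 1 ≤ ((k : ℝ) + 1) * (u * v) := by
      have := mul_le_mul_of_nonneg_left ih hk1.le
      rwa [mul_one_div_cancel hk1.ne'] at this
    have hfin : (k : ℝ) + 2 ≤ ((k : ℝ) + 2) ^ 2 * (U * V) := by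
      have : ((k : ℝ) + 1) ≤ ((k : ℝ) + 1) ^ 2 * (u * v) := by nlinarith
      nlinarith
    push_cast
    rw [div_le_iff₀ (by positivity)]
    have h3 : U * V * ((k : ℝ) + 1 + 1) * ((k : ℝ) + 2) = ((k : ℝ) + 2) ^ 2 * (U * V) := by ring
    have h4 : (1 : ℝ) * ((k : ℝ) + 2) ≤ U * V * ((k : ℝ) + 1 + 1) * ((k : ℝ) + 2) := by
      rw [h3]; linarith
    exact le_of_mul_le_mul_right h4 hk2

end Vale.Agent.Lib.P248.H55
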